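import Vale.Agent.Lib.P154C.D4.Main
import Vale.Agent.Lib.P154_cl98.Inst4

set_option linter.defProp false

/-!
Nonreconstruction for the tree with four children at and below the threshold, from the table and the closure.
-/

noncomputable section

open Filter Topology

namespace Vale.Agent.Lib.P154C.D4

open Vale.Agent.Lib.P154 Vale.Agent.Lib.P154.Cl

def chain_d4 : chainOK P4 S4 4 400 111160625569 20121062789 54975581388 8246337208 = true := by decide +kernel

/-- Nonreconstruction for `d = 4`, all eigenvalues at and below the threshold on the negative side. -/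
theorem adv_d4 {μ : ℝ} (h0 : 0 < μ) (h1 : μ ≤ 1 / 2) : Tendsto (advantage 4 3 (-μ)) atTop (𝓝 0) := by
  refine adv_4 (N := 280) chain_d4 (by norm_num) (by norm_num) (fun ν hν0 hν1 => ?_) h0 h1
  constructor
  · refine (xx_last hν0.le hν1.le).trans ?_
    norm_num
  · refine (QQ_last hν0.le hν1.le).trans ?_
    norm_num

end Vale.Agent.Lib.P154C.D4
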