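import Vale.Agent.Lib.P154B.Fast2

namespace Vale.Agent.Lib.P154C.D4

open Vale.Agent.Lib.P154B

def mkR (t L : ℕ) (hs : List ℕ) : Rec := ⟨t, L, hs⟩

def qsD : List ℕ := List.replicate 4 0 ++ [4294967295]

end Vale.Agent.Lib.P154C.D4
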