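import Vale.Agent.Lib.P154C.D4.C0
import Vale.Agent.Lib.P154C.D4.C1
import Vale.Agent.Lib.P154C.D4.C2
import Vale.Agent.Lib.P154C.D4.C3
import Vale.Agent.Lib.P154C.D4.R0
import Vale.Agent.Lib.P154C.D4.R4
import Vale.Agent.Lib.P154C.D4.R12
import Vale.Agent.Lib.P154C.D4.R20
import Vale.Agent.Lib.P154C.D4.R28
import Vale.Agent.Lib.P154C.D4.R36
import Vale.Agent.Lib.P154C.D4.R44
import Vale.Agent.Lib.P154C.D4.R52
import Vale.Agent.Lib.P154C.D4.R60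
import Vale.Agent.Lib.P154C.D4.R68
import Vale.Agent.Lib.P154C.D4.R76
import Vale.Agent.Lib.P154C.D4.R80
import Vale.Agent.Lib.P154C.D4.R84
import Vale.Agent.Lib.P154C.D4.R92
import Vale.Agent.Lib.P154C.D4.R100
import Vale.Agent.Lib.P154C.D4.R108
import Vale.Agent.Lib.P154C.D4.R116
import Vale.Agent.Lib.P154C.D4.R120
import Vale.Agent.Lib.P154C.D4.R124
import Vale.Agent.Lib.P154C.D4.R132
import Vale.Agent.Lib.P154C.D4.R140
import Vale.Agent.Lib.P154C.D4.R148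
import Vale.Agent.Lib.P154C.D4.R156
import Vale.Agent.Lib.P154C.D4.R164
import Vale.Agent.Lib.P154C.D4.R172
import Vale.Agent.Lib.P154C.D4.R180
import Vale.Agent.Lib.P154C.D4.R188
import Vale.Agent.Lib.P154C.D4.R196
import Vale.Agent.Lib.P154C.D4.R204
import Vale.Agent.Lib.P154C.D4.R212
import Vale.Agent.Lib.P154C.D4.R219
import Vale.Agent.Lib.P154C.D4.R220
import Vale.Agent.Lib.P154C.D4.R224
import Vale.Agent.Lib.P154C.D4.R232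
import Vale.Agent.Lib.P154C.D4.R240
import Vale.Agent.Lib.P154C.D4.R248
import Vale.Agent.Lib.P154C.D4.R256
import Vale.Agent.Lib.P154C.D4.R264
import Vale.Agent.Lib.P154C.D4.R272
import Vale.Agent.Lib.P154C.D4.R279
import Vale.Agent.Lib.P154C.D4.Last

namespace Vale.Agent.Lib.P154C.D4

open Vale.Agent.Lib.P154B

noncomputable section

theorem lp0_loop : lp0.IsLoop := ⟨rfl, rfl, rfl, rfl⟩

theorem lp1_loop : lp1.IsLoop := ⟨rfl, rfl, rfl, rfl⟩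

theorem lp2_loop : lp2.IsLoop := ⟨rfl, rfl, rfl, rfl⟩

theorem lp3_loop : lp3.IsLoop := ⟨rfl, rfl, rfl, rfl⟩

section
variable {A : ℕ → (Vec → ℝ) → ℝ} {μ : ℝ} (hF : FunSeq A μ 32 qsD) (hμ : μ ≤ ((1 : ℕ) : ℝ) / ((2 : ℕ) : ℝ))
include hF hμ

theorem lv_0 : StOK lp0.T.Lp.ρ lp0.T.par.r lp0.T.par.P lp0.S₀ lp0.ks₀ s_0 (chanF μ (A 0)) := by
  have h := Phase.run_start (ph := tr0) tr0_check hF (hm_of rfl rfl hμ)
  rw [start_of_beq (ph := tr0) rfl rfl tr0_g1 tr0_g2 run_0] at h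
  exact h

theorem lv_4 : StOK lp0.T.Lp.ρ lp0.T.par.r lp0.T.par.P lp0.S₀ lp0.ks₀ s_4 (chanF μ (A 4)) := by
  have h := Phase.run_loop (ph := lp0) lp0_check lp0_chk2 lp0_loop hF (Phase.rho_pos lp0_check) (hm_of rfl rfl hμ) 4 (lv_0 hF hμ)
  rw [run_of_beqG (ph := lp0) rfl rfl lp0_g1 lp0_g2 run_4] at h
  exact h

theorem lv_8 : StOK lp0.T.Lp.ρ lp0.T.par.r lp0.T.par.P lp0.S₀ lp0.ks₀ s_8 (chanF μ (A 8)) := by
  have h := Phase.run_loop (ph := lp0) lp0_check lp0_chk2 lp0_loop hF (Phase.rho_pos lp0_check) (hm_of rfl rfl hμ) 4 (lv_4 hF hμ)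
  rw [run_of_beqG (ph := lp0) rfl rfl lp0_g1 lp0_g2 run_8] at h
  exact h

theorem lv_12 : StOK lp0.T.Lp.ρ lp0.T.par.r lp0.T.par.P lp0.S₀ lp0.ks₀ s_12 (chanF μ (A 12)) := by
  have h := Phase.run_loop (ph := lp0) lp0_check lp0_chk2 lp0_loop hF (Phase.rho_pos lp0_check) (hm_of rfl rfl hμ) 4 (lv_8 hF hμ)
  rw [run_of_beqG (ph := lp0) rfl rfl lp0_g1 lp0_g2 run_12] at h
  exact h

theorem lv_16 : StOK lp0.T.Lp.ρ lp0.T.par.r lp0.T.par.P lp0.S₀ lp0.ks₀ s_16 (chanF μ (A 16)) := by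
  have h := Phase.run_loop (ph := lp0) lp0_check lp0_chk2 lp0_loop hF (Phase.rho_pos lp0_check) (hm_of rfl rfl hμ) 4 (lv_12 hF hμ)
  rw [run_of_beqG (ph := lp0) rfl rfl lp0_g1 lp0_g2 run_16] at h
  exact h

theorem lv_20 : StOK lp0.T.Lp.ρ lp0.T.par.r lp0.T.par.P lp0.S₀ lp0.ks₀ s_20 (chanF μ (A 20)) := by
  have h := Phase.run_loop (ph := lp0) lp0_check lp0_chk2 lp0_loop hF (Phase.rho_pos lp0_check) (hm_of rfl rfl hμ) 4 (lv_16 hF hμ)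
  rw [run_of_beqG (ph := lp0) rfl rfl lp0_g1 lp0_g2 run_20] at h
  exact h

theorem lv_24 : StOK lp0.T.Lp.ρ lp0.T.par.r lp0.T.par.P lp0.S₀ lp0.ks₀ s_24 (chanF μ (A 24)) := by
  have h := Phase.run_loop (ph := lp0) lp0_check lp0_chk2 lp0_loop hF (Phase.rho_pos lp0_check) (hm_of rfl rfl hμ) 4 (lv_20 hF hμ)
  rw [run_of_beqG (ph := lp0) rfl rfl lp0_g1 lp0_g2 run_24] at h
  exact h

theorem lv_28 : StOK lp0.T.Lp.ρ lp0.T.par.r lp0.T.par.P lp0.S₀ lp0.ks₀ s_28 (chanF μ (A 28)) := by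
  have h := Phase.run_loop (ph := lp0) lp0_check lp0_chk2 lp0_loop hF (Phase.rho_pos lp0_check) (hm_of rfl rfl hμ) 4 (lv_24 hF hμ)
  rw [run_of_beqG (ph := lp0) rfl rfl lp0_g1 lp0_g2 run_28] at h
  exact h

theorem lv_32 : StOK lp0.T.Lp.ρ lp0.T.par.r lp0.T.par.P lp0.S₀ lp0.ks₀ s_32 (chanF μ (A 32)) := by
  have h := Phase.run_loop (ph := lp0) lp0_check lp0_chk2 lp0_loop hF (Phase.rho_pos lp0_check) (hm_of rfl rfl hμ) 4 (lv_28 hF hμ)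
  rw [run_of_beqG (ph := lp0) rfl rfl lp0_g1 lp0_g2 run_32] at h
  exact h

theorem lv_36 : StOK lp0.T.Lp.ρ lp0.T.par.r lp0.T.par.P lp0.S₀ lp0.ks₀ s_36 (chanF μ (A 36)) := by
  have h := Phase.run_loop (ph := lp0) lp0_check lp0_chk2 lp0_loop hF (Phase.rho_pos lp0_check) (hm_of rfl rfl hμ) 4 (lv_32 hF hμ)
  rw [run_of_beqG (ph := lp0) rfl rfl lp0_g1 lp0_g2 run_36] at h
  exact h

theorem lv_40 : StOK lp0.T.Lp.ρ lp0.T.par.r lp0.T.par.P lp0.S₀ lp0.ks₀ s_40 (chanF μ (A 40)) := by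
  have h := Phase.run_loop (ph := lp0) lp0_check lp0_chk2 lp0_loop hF (Phase.rho_pos lp0_check) (hm_of rfl rfl hμ) 4 (lv_36 hF hμ)
  rw [run_of_beqG (ph := lp0) rfl rfl lp0_g1 lp0_g2 run_40] at h
  exact h

theorem lv_44 : StOK lp0.T.Lp.ρ lp0.T.par.r lp0.T.par.P lp0.S₀ lp0.ks₀ s_44 (chanF μ (A 44)) := by
  have h := Phase.run_loop (ph := lp0) lp0_check lp0_chk2 lp0_loop hF (Phase.rho_pos lp0_check) (hm_of rfl rfl hμ) 4 (lv_40 hF hμ)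
  rw [run_of_beqG (ph := lp0) rfl rfl lp0_g1 lp0_g2 run_44] at h
  exact h

theorem lv_48 : StOK lp0.T.Lp.ρ lp0.T.par.r lp0.T.par.P lp0.S₀ lp0.ks₀ s_48 (chanF μ (A 48)) := by
  have h := Phase.run_loop (ph := lp0) lp0_check lp0_chk2 lp0_loop hF (Phase.rho_pos lp0_check) (hm_of rfl rfl hμ) 4 (lv_44 hF hμ)
  rw [run_of_beqG (ph := lp0) rfl rfl lp0_g1 lp0_g2 run_48] at h
  exact h

theorem lv_52 : StOK lp0.T.Lp.ρ lp0.T.par.r lp0.T.par.P lp0.S₀ lp0.ks₀ s_52 (chanF μ (A 52)) := by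
  have h := Phase.run_loop (ph := lp0) lp0_check lp0_chk2 lp0_loop hF (Phase.rho_pos lp0_check) (hm_of rfl rfl hμ) 4 (lv_48 hF hμ)
  rw [run_of_beqG (ph := lp0) rfl rfl lp0_g1 lp0_g2 run_52] at h
  exact h

theorem lv_56 : StOK lp0.T.Lp.ρ lp0.T.par.r lp0.T.par.P lp0.S₀ lp0.ks₀ s_56 (chanF μ (A 56)) := by
  have h := Phase.run_loop (ph := lp0) lp0_check lp0_chk2 lp0_loop hF (Phase.rho_pos lp0_check) (hm_of rfl rfl hμ) 4 (lv_52 hF hμ)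
  rw [run_of_beqG (ph := lp0) rfl rfl lp0_g1 lp0_g2 run_56] at h
  exact h

theorem lv_60 : StOK lp0.T.Lp.ρ lp0.T.par.r lp0.T.par.P lp0.S₀ lp0.ks₀ s_60 (chanF μ (A 60)) := by
  have h := Phase.run_loop (ph := lp0) lp0_check lp0_chk2 lp0_loop hF (Phase.rho_pos lp0_check) (hm_of rfl rfl hμ) 4 (lv_56 hF hμ)
  rw [run_of_beqG (ph := lp0) rfl rfl lp0_g1 lp0_g2 run_60] at h
  exact h

theorem lv_64 : StOK lp0.T.Lp.ρ lp0.T.par.r lp0.T.par.P lp0.S₀ lp0.ks₀ s_64 (chanF μ (A 64)) := by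
  have h := Phase.run_loop (ph := lp0) lp0_check lp0_chk2 lp0_loop hF (Phase.rho_pos lp0_check) (hm_of rfl rfl hμ) 4 (lv_60 hF hμ)
  rw [run_of_beqG (ph := lp0) rfl rfl lp0_g1 lp0_g2 run_64] at h
  exact h

theorem lv_68 : StOK lp0.T.Lp.ρ lp0.T.par.r lp0.T.par.P lp0.S₀ lp0.ks₀ s_68 (chanF μ (A 68)) := by
  have h := Phase.run_loop (ph := lp0) lp0_check lp0_chk2 lp0_loop hF (Phase.rho_pos lp0_check) (hm_of rfl rfl hμ) 4 (lv_64 hF hμ)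
  rw [run_of_beqG (ph := lp0) rfl rfl lp0_g1 lp0_g2 run_68] at h
  exact h

theorem lv_72 : StOK lp0.T.Lp.ρ lp0.T.par.r lp0.T.par.P lp0.S₀ lp0.ks₀ s_72 (chanF μ (A 72)) := by
  have h := Phase.run_loop (ph := lp0) lp0_check lp0_chk2 lp0_loop hF (Phase.rho_pos lp0_check) (hm_of rfl rfl hμ) 4 (lv_68 hF hμ)
  rw [run_of_beqG (ph := lp0) rfl rfl lp0_g1 lp0_g2 run_72] at h
  exact h

theorem lv_76 : StOK lp0.T.Lp.ρ lp0.T.par.r lp0.T.par.P lp0.S₀ lp0.ks₀ s_76 (chanF μ (A 76)) := by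
  have h := Phase.run_loop (ph := lp0) lp0_check lp0_chk2 lp0_loop hF (Phase.rho_pos lp0_check) (hm_of rfl rfl hμ) 4 (lv_72 hF hμ)
  rw [run_of_beqG (ph := lp0) rfl rfl lp0_g1 lp0_g2 run_76] at h
  exact h

theorem lv_79 : StOK lp0.T.Lp.ρ lp0.T.par.r lp0.T.par.P lp0.S₀ lp0.ks₀ s_79 (chanF μ (A 79)) := by
  have h := Phase.run_loop (ph := lp0) lp0_check lp0_chk2 lp0_loop hF (Phase.rho_pos lp0_check) (hm_of rfl rfl hμ) 3 (lv_76 hF hμ)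
  rw [run_of_beqG (ph := lp0) rfl rfl lp0_g1 lp0_g2 run_79] at h
  exact h

theorem lv_80 : StOK lp1.T.Lp.ρ lp1.T.par.r lp1.T.par.P lp1.S₀ lp1.ks₀ s_80 (chanF μ (A 80)) := by
  have h := Phase.run_step (ph := tr1) tr1_check tr1_chk2 hF (Phase.rho_pos tr1_check) (hm_of rfl rfl hμ) (lv_79 hF hμ)
  rw [step_of_beqG (ph := tr1) rfl rfl tr1_g1 tr1_g2 run_80] at h
  exact h

theorem lv_84 : StOK lp1.T.Lp.ρ lp1.T.par.r lp1.T.par.P lp1.S₀ lp1.ks₀ s_84 (chanF μ (A 84)) := by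
  have h := Phase.run_loop (ph := lp1) lp1_check lp1_chk2 lp1_loop hF (Phase.rho_pos lp1_check) (hm_of rfl rfl hμ) 4 (lv_80 hF hμ)
  rw [run_of_beqG (ph := lp1) rfl rfl lp1_g1 lp1_g2 run_84] at h
  exact h

theorem lv_88 : StOK lp1.T.Lp.ρ lp1.T.par.r lp1.T.par.P lp1.S₀ lp1.ks₀ s_88 (chanF μ (A 88)) := by
  have h := Phase.run_loop (ph := lp1) lp1_check lp1_chk2 lp1_loop hF (Phase.rho_pos lp1_check) (hm_of rfl rfl hμ) 4 (lv_84 hF hμ)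
  rw [run_of_beqG (ph := lp1) rfl rfl lp1_g1 lp1_g2 run_88] at h
  exact h

theorem lv_92 : StOK lp1.T.Lp.ρ lp1.T.par.r lp1.T.par.P lp1.S₀ lp1.ks₀ s_92 (chanF μ (A 92)) := by
  have h := Phase.run_loop (ph := lp1) lp1_check lp1_chk2 lp1_loop hF (Phase.rho_pos lp1_check) (hm_of rfl rfl hμ) 4 (lv_88 hF hμ)
  rw [run_of_beqG (ph := lp1) rfl rfl lp1_g1 lp1_g2 run_92] at h
  exact h

theorem lv_96 : StOK lp1.T.Lp.ρ lp1.T.par.r lp1.T.par.P lp1.S₀ lp1.ks₀ s_96 (chanF μ (A 96)) := by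
  have h := Phase.run_loop (ph := lp1) lp1_check lp1_chk2 lp1_loop hF (Phase.rho_pos lp1_check) (hm_of rfl rfl hμ) 4 (lv_92 hF hμ)
  rw [run_of_beqG (ph := lp1) rfl rfl lp1_g1 lp1_g2 run_96] at h
  exact h

theorem lv_100 : StOK lp1.T.Lp.ρ lp1.T.par.r lp1.T.par.P lp1.S₀ lp1.ks₀ s_100 (chanF μ (A 100)) := by
  have h := Phase.run_loop (ph := lp1) lp1_check lp1_chk2 lp1_loop hF (Phase.rho_pos lp1_check) (hm_of rfl rfl hμ) 4 (lv_96 hF hμ)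
  rw [run_of_beqG (ph := lp1) rfl rfl lp1_g1 lp1_g2 run_100] at h
  exact h

theorem lv_104 : StOK lp1.T.Lp.ρ lp1.T.par.r lp1.T.par.P lp1.S₀ lp1.ks₀ s_104 (chanF μ (A 104)) := by
  have h := Phase.run_loop (ph := lp1) lp1_check lp1_chk2 lp1_loop hF (Phase.rho_pos lp1_check) (hm_of rfl rfl hμ) 4 (lv_100 hF hμ)
  rw [run_of_beqG (ph := lp1) rfl rfl lp1_g1 lp1_g2 run_104] at h
  exact h

theorem lv_108 : StOK lp1.T.Lp.ρ lp1.T.par.r lp1.T.par.P lp1.S₀ lp1.ks₀ s_108 (chanF μ (A 108)) := by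
  have h := Phase.run_loop (ph := lp1) lp1_check lp1_chk2 lp1_loop hF (Phase.rho_pos lp1_check) (hm_of rfl rfl hμ) 4 (lv_104 hF hμ)
  rw [run_of_beqG (ph := lp1) rfl rfl lp1_g1 lp1_g2 run_108] at h
  exact h

theorem lv_112 : StOK lp1.T.Lp.ρ lp1.T.par.r lp1.T.par.P lp1.S₀ lp1.ks₀ s_112 (chanF μ (A 112)) := by
  have h := Phase.run_loop (ph := lp1) lp1_check lp1_chk2 lp1_loop hF (Phase.rho_pos lp1_check) (hm_of rfl rfl hμ) 4 (lv_108 hF hμ)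
  rw [run_of_beqG (ph := lp1) rfl rfl lp1_g1 lp1_g2 run_112] at h
  exact h

theorem lv_116 : StOK lp1.T.Lp.ρ lp1.T.par.r lp1.T.par.P lp1.S₀ lp1.ks₀ s_116 (chanF μ (A 116)) := by
  have h := Phase.run_loop (ph := lp1) lp1_check lp1_chk2 lp1_loop hF (Phase.rho_pos lp1_check) (hm_of rfl rfl hμ) 4 (lv_112 hF hμ)
  rw [run_of_beqG (ph := lp1) rfl rfl lp1_g1 lp1_g2 run_116] at h
  exact h

theorem lv_119 : StOK lp1.T.Lp.ρ lp1.T.par.r lp1.T.par.P lp1.S₀ lp1.ks₀ s_119 (chanF μ (A 119)) := by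
  have h := Phase.run_loop (ph := lp1) lp1_check lp1_chk2 lp1_loop hF (Phase.rho_pos lp1_check) (hm_of rfl rfl hμ) 3 (lv_116 hF hμ)
  rw [run_of_beqG (ph := lp1) rfl rfl lp1_g1 lp1_g2 run_119] at h
  exact h

theorem lv_120 : StOK lp2.T.Lp.ρ lp2.T.par.r lp2.T.par.P lp2.S₀ lp2.ks₀ s_120 (chanF μ (A 120)) := by
  have h := Phase.run_step (ph := tr2) tr2_check tr2_chk2 hF (Phase.rho_pos tr2_check) (hm_of rfl rfl hμ) (lv_119 hF hμ)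
  rw [step_of_beqG (ph := tr2) rfl rfl tr2_g1 tr2_g2 run_120] at h
  exact h

theorem lv_124 : StOK lp2.T.Lp.ρ lp2.T.par.r lp2.T.par.P lp2.S₀ lp2.ks₀ s_124 (chanF μ (A 124)) := by
  have h := Phase.run_loop (ph := lp2) lp2_check lp2_chk2 lp2_loop hF (Phase.rho_pos lp2_check) (hm_of rfl rfl hμ) 4 (lv_120 hF hμ)
  rw [run_of_beqG (ph := lp2) rfl rfl lp2_g1 lp2_g2 run_124] at h
  exact h

theorem lv_128 : StOK lp2.T.Lp.ρ lp2.T.par.r lp2.T.par.P lp2.S₀ lp2.ks₀ s_128 (chanF μ (A 128)) := by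
  have h := Phase.run_loop (ph := lp2) lp2_check lp2_chk2 lp2_loop hF (Phase.rho_pos lp2_check) (hm_of rfl rfl hμ) 4 (lv_124 hF hμ)
  rw [run_of_beqG (ph := lp2) rfl rfl lp2_g1 lp2_g2 run_128] at h
  exact h

theorem lv_132 : StOK lp2.T.Lp.ρ lp2.T.par.r lp2.T.par.P lp2.S₀ lp2.ks₀ s_132 (chanF μ (A 132)) := by
  have h := Phase.run_loop (ph := lp2) lp2_check lp2_chk2 lp2_loop hF (Phase.rho_pos lp2_check) (hm_of rfl rfl hμ) 4 (lv_128 hF hμ)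
  rw [run_of_beqG (ph := lp2) rfl rfl lp2_g1 lp2_g2 run_132] at h
  exact h

theorem lv_136 : StOK lp2.T.Lp.ρ lp2.T.par.r lp2.T.par.P lp2.S₀ lp2.ks₀ s_136 (chanF μ (A 136)) := by
  have h := Phase.run_loop (ph := lp2) lp2_check lp2_chk2 lp2_loop hF (Phase.rho_pos lp2_check) (hm_of rfl rfl hμ) 4 (lv_132 hF hμ)
  rw [run_of_beqG (ph := lp2) rfl rfl lp2_g1 lp2_g2 run_136] at h
  exact h

theorem lv_140 : StOK lp2.T.Lp.ρ lp2.T.par.r lp2.T.par.P lp2.S₀ lp2.ks₀ s_140 (chanF μ (A 140)) := by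
  have h := Phase.run_loop (ph := lp2) lp2_check lp2_chk2 lp2_loop hF (Phase.rho_pos lp2_check) (hm_of rfl rfl hμ) 4 (lv_136 hF hμ)
  rw [run_of_beqG (ph := lp2) rfl rfl lp2_g1 lp2_g2 run_140] at h
  exact h

theorem lv_144 : StOK lp2.T.Lp.ρ lp2.T.par.r lp2.T.par.P lp2.S₀ lp2.ks₀ s_144 (chanF μ (A 144)) := by
  have h := Phase.run_loop (ph := lp2) lp2_check lp2_chk2 lp2_loop hF (Phase.rho_pos lp2_check) (hm_of rfl rfl hμ) 4 (lv_140 hF hμ)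
  rw [run_of_beqG (ph := lp2) rfl rfl lp2_g1 lp2_g2 run_144] at h
  exact h

theorem lv_148 : StOK lp2.T.Lp.ρ lp2.T.par.r lp2.T.par.P lp2.S₀ lp2.ks₀ s_148 (chanF μ (A 148)) := by
  have h := Phase.run_loop (ph := lp2) lp2_check lp2_chk2 lp2_loop hF (Phase.rho_pos lp2_check) (hm_of rfl rfl hμ) 4 (lv_144 hF hμ)
  rw [run_of_beqG (ph := lp2) rfl rfl lp2_g1 lp2_g2 run_148] at h
  exact h

theorem lv_152 : StOK lp2.T.Lp.ρ lp2.T.par.r lp2.T.par.P lp2.S₀ lp2.ks₀ s_152 (chanF μ (A 152)) := by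
  have h := Phase.run_loop (ph := lp2) lp2_check lp2_chk2 lp2_loop hF (Phase.rho_pos lp2_check) (hm_of rfl rfl hμ) 4 (lv_148 hF hμ)
  rw [run_of_beqG (ph := lp2) rfl rfl lp2_g1 lp2_g2 run_152] at h
  exact h

theorem lv_156 : StOK lp2.T.Lp.ρ lp2.T.par.r lp2.T.par.P lp2.S₀ lp2.ks₀ s_156 (chanF μ (A 156)) := by
  have h := Phase.run_loop (ph := lp2) lp2_check lp2_chk2 lp2_loop hF (Phase.rho_pos lp2_check) (hm_of rfl rfl hμ) 4 (lv_152 hF hμ)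
  rw [run_of_beqG (ph := lp2) rfl rfl lp2_g1 lp2_g2 run_156] at h
  exact h

theorem lv_160 : StOK lp2.T.Lp.ρ lp2.T.par.r lp2.T.par.P lp2.S₀ lp2.ks₀ s_160 (chanF μ (A 160)) := by
  have h := Phase.run_loop (ph := lp2) lp2_check lp2_chk2 lp2_loop hF (Phase.rho_pos lp2_check) (hm_of rfl rfl hμ) 4 (lv_156 hF hμ)
  rw [run_of_beqG (ph := lp2) rfl rfl lp2_g1 lp2_g2 run_160] at h
  exact h

theorem lv_164 : StOK lp2.T.Lp.ρ lp2.T.par.r lp2.T.par.P lp2.S₀ lp2.ks₀ s_164 (chanF μ (A 164)) := by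
  have h := Phase.run_loop (ph := lp2) lp2_check lp2_chk2 lp2_loop hF (Phase.rho_pos lp2_check) (hm_of rfl rfl hμ) 4 (lv_160 hF hμ)
  rw [run_of_beqG (ph := lp2) rfl rfl lp2_g1 lp2_g2 run_164] at h
  exact h

theorem lv_168 : StOK lp2.T.Lp.ρ lp2.T.par.r lp2.T.par.P lp2.S₀ lp2.ks₀ s_168 (chanF μ (A 168)) := by
  have h := Phase.run_loop (ph := lp2) lp2_check lp2_chk2 lp2_loop hF (Phase.rho_pos lp2_check) (hm_of rfl rfl hμ) 4 (lv_164 hF hμ)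
  rw [run_of_beqG (ph := lp2) rfl rfl lp2_g1 lp2_g2 run_168] at h
  exact h

theorem lv_172 : StOK lp2.T.Lp.ρ lp2.T.par.r lp2.T.par.P lp2.S₀ lp2.ks₀ s_172 (chanF μ (A 172)) := by
  have h := Phase.run_loop (ph := lp2) lp2_check lp2_chk2 lp2_loop hF (Phase.rho_pos lp2_check) (hm_of rfl rfl hμ) 4 (lv_168 hF hμ)
  rw [run_of_beqG (ph := lp2) rfl rfl lp2_g1 lp2_g2 run_172] at h
  exact h

theorem lv_176 : StOK lp2.T.Lp.ρ lp2.T.par.r lp2.T.par.P lp2.S₀ lp2.ks₀ s_176 (chanF μ (A 176)) := by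
  have h := Phase.run_loop (ph := lp2) lp2_check lp2_chk2 lp2_loop hF (Phase.rho_pos lp2_check) (hm_of rfl rfl hμ) 4 (lv_172 hF hμ)
  rw [run_of_beqG (ph := lp2) rfl rfl lp2_g1 lp2_g2 run_176] at h
  exact h

theorem lv_180 : StOK lp2.T.Lp.ρ lp2.T.par.r lp2.T.par.P lp2.S₀ lp2.ks₀ s_180 (chanF μ (A 180)) := by
  have h := Phase.run_loop (ph := lp2) lp2_check lp2_chk2 lp2_loop hF (Phase.rho_pos lp2_check) (hm_of rfl rfl hμ) 4 (lv_176 hF hμ)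
  rw [run_of_beqG (ph := lp2) rfl rfl lp2_g1 lp2_g2 run_180] at h
  exact h

theorem lv_184 : StOK lp2.T.Lp.ρ lp2.T.par.r lp2.T.par.P lp2.S₀ lp2.ks₀ s_184 (chanF μ (A 184)) := by
  have h := Phase.run_loop (ph := lp2) lp2_check lp2_chk2 lp2_loop hF (Phase.rho_pos lp2_check) (hm_of rfl rfl hμ) 4 (lv_180 hF hμ)
  rw [run_of_beqG (ph := lp2) rfl rfl lp2_g1 lp2_g2 run_184] at h
  exact h

theorem lv_188 : StOK lp2.T.Lp.ρ lp2.T.par.r lp2.T.par.P lp2.S₀ lp2.ks₀ s_188 (chanF μ (A 188)) := by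
  have h := Phase.run_loop (ph := lp2) lp2_check lp2_chk2 lp2_loop hF (Phase.rho_pos lp2_check) (hm_of rfl rfl hμ) 4 (lv_184 hF hμ)
  rw [run_of_beqG (ph := lp2) rfl rfl lp2_g1 lp2_g2 run_188] at h
  exact h

theorem lv_192 : StOK lp2.T.Lp.ρ lp2.T.par.r lp2.T.par.P lp2.S₀ lp2.ks₀ s_192 (chanF μ (A 192)) := by
  have h := Phase.run_loop (ph := lp2) lp2_check lp2_chk2 lp2_loop hF (Phase.rho_pos lp2_check) (hm_of rfl rfl hμ) 4 (lv_188 hF hμ)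
  rw [run_of_beqG (ph := lp2) rfl rfl lp2_g1 lp2_g2 run_192] at h
  exact h

theorem lv_196 : StOK lp2.T.Lp.ρ lp2.T.par.r lp2.T.par.P lp2.S₀ lp2.ks₀ s_196 (chanF μ (A 196)) := by
  have h := Phase.run_loop (ph := lp2) lp2_check lp2_chk2 lp2_loop hF (Phase.rho_pos lp2_check) (hm_of rfl rfl hμ) 4 (lv_192 hF hμ)
  rw [run_of_beqG (ph := lp2) rfl rfl lp2_g1 lp2_g2 run_196] at h
  exact h

theorem lv_200 : StOK lp2.T.Lp.ρ lp2.T.par.r lp2.T.par.P lp2.S₀ lp2.ks₀ s_200 (chanF μ (A 200)) := by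
  have h := Phase.run_loop (ph := lp2) lp2_check lp2_chk2 lp2_loop hF (Phase.rho_pos lp2_check) (hm_of rfl rfl hμ) 4 (lv_196 hF hμ)
  rw [run_of_beqG (ph := lp2) rfl rfl lp2_g1 lp2_g2 run_200] at h
  exact h

theorem lv_204 : StOK lp2.T.Lp.ρ lp2.T.par.r lp2.T.par.P lp2.S₀ lp2.ks₀ s_204 (chanF μ (A 204)) := by
  have h := Phase.run_loop (ph := lp2) lp2_check lp2_chk2 lp2_loop hF (Phase.rho_pos lp2_check) (hm_of rfl rfl hμ) 4 (lv_200 hF hμ)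
  rw [run_of_beqG (ph := lp2) rfl rfl lp2_g1 lp2_g2 run_204] at h
  exact h

theorem lv_208 : StOK lp2.T.Lp.ρ lp2.T.par.r lp2.T.par.P lp2.S₀ lp2.ks₀ s_208 (chanF μ (A 208)) := by
  have h := Phase.run_loop (ph := lp2) lp2_check lp2_chk2 lp2_loop hF (Phase.rho_pos lp2_check) (hm_of rfl rfl hμ) 4 (lv_204 hF hμ)
  rw [run_of_beqG (ph := lp2) rfl rfl lp2_g1 lp2_g2 run_208] at h
  exact h

theorem lv_212 : StOK lp2.T.Lp.ρ lp2.T.par.r lp2.T.par.P lp2.S₀ lp2.ks₀ s_212 (chanF μ (A 212)) := by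
  have h := Phase.run_loop (ph := lp2) lp2_check lp2_chk2 lp2_loop hF (Phase.rho_pos lp2_check) (hm_of rfl rfl hμ) 4 (lv_208 hF hμ)
  rw [run_of_beqG (ph := lp2) rfl rfl lp2_g1 lp2_g2 run_212] at h
  exact h

theorem lv_216 : StOK lp2.T.Lp.ρ lp2.T.par.r lp2.T.par.P lp2.S₀ lp2.ks₀ s_216 (chanF μ (A 216)) := by
  have h := Phase.run_loop (ph := lp2) lp2_check lp2_chk2 lp2_loop hF (Phase.rho_pos lp2_check) (hm_of rfl rfl hμ) 4 (lv_212 hF hμ)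
  rw [run_of_beqG (ph := lp2) rfl rfl lp2_g1 lp2_g2 run_216] at h
  exact h

theorem lv_219 : StOK lp2.T.Lp.ρ lp2.T.par.r lp2.T.par.P lp2.S₀ lp2.ks₀ s_219 (chanF μ (A 219)) := by
  have h := Phase.run_loop (ph := lp2) lp2_check lp2_chk2 lp2_loop hF (Phase.rho_pos lp2_check) (hm_of rfl rfl hμ) 3 (lv_216 hF hμ)
  rw [run_of_beqG (ph := lp2) rfl rfl lp2_g1 lp2_g2 run_219] at h
  exact h

theorem lv_220 : StOK lp3.T.Lp.ρ lp3.T.par.r lp3.T.par.P lp3.S₀ lp3.ks₀ s_220 (chanF μ (A 220)) := by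
  have h := Phase.run_step (ph := tr3) tr3_check tr3_chk2 hF (Phase.rho_pos tr3_check) (hm_of rfl rfl hμ) (lv_219 hF hμ)
  rw [step_of_beqG (ph := tr3) rfl rfl tr3_g1 tr3_g2 run_220] at h
  exact h

theorem lv_224 : StOK lp3.T.Lp.ρ lp3.T.par.r lp3.T.par.P lp3.S₀ lp3.ks₀ s_224 (chanF μ (A 224)) := by
  have h := Phase.run_loop (ph := lp3) lp3_check lp3_chk2 lp3_loop hF (Phase.rho_pos lp3_check) (hm_of rfl rfl hμ) 4 (lv_220 hF hμ)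
  rw [run_of_beqG (ph := lp3) rfl rfl lp3_g1 lp3_g2 run_224] at h
  exact h

theorem lv_228 : StOK lp3.T.Lp.ρ lp3.T.par.r lp3.T.par.P lp3.S₀ lp3.ks₀ s_228 (chanF μ (A 228)) := by
  have h := Phase.run_loop (ph := lp3) lp3_check lp3_chk2 lp3_loop hF (Phase.rho_pos lp3_check) (hm_of rfl rfl hμ) 4 (lv_224 hF hμ)
  rw [run_of_beqG (ph := lp3) rfl rfl lp3_g1 lp3_g2 run_228] at h
  exact h

theorem lv_232 : StOK lp3.T.Lp.ρ lp3.T.par.r lp3.T.par.P lp3.S₀ lp3.ks₀ s_232 (chanF μ (A 232)) := by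
  have h := Phase.run_loop (ph := lp3) lp3_check lp3_chk2 lp3_loop hF (Phase.rho_pos lp3_check) (hm_of rfl rfl hμ) 4 (lv_228 hF hμ)
  rw [run_of_beqG (ph := lp3) rfl rfl lp3_g1 lp3_g2 run_232] at h
  exact h

theorem lv_236 : StOK lp3.T.Lp.ρ lp3.T.par.r lp3.T.par.P lp3.S₀ lp3.ks₀ s_236 (chanF μ (A 236)) := by
  have h := Phase.run_loop (ph := lp3) lp3_check lp3_chk2 lp3_loop hF (Phase.rho_pos lp3_check) (hm_of rfl rfl hμ) 4 (lv_232 hF hμ)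
  rw [run_of_beqG (ph := lp3) rfl rfl lp3_g1 lp3_g2 run_236] at h
  exact h

theorem lv_240 : StOK lp3.T.Lp.ρ lp3.T.par.r lp3.T.par.P lp3.S₀ lp3.ks₀ s_240 (chanF μ (A 240)) := by
  have h := Phase.run_loop (ph := lp3) lp3_check lp3_chk2 lp3_loop hF (Phase.rho_pos lp3_check) (hm_of rfl rfl hμ) 4 (lv_236 hF hμ)
  rw [run_of_beqG (ph := lp3) rfl rfl lp3_g1 lp3_g2 run_240] at h
  exact h

theorem lv_244 : StOK lp3.T.Lp.ρ lp3.T.par.r lp3.T.par.P lp3.S₀ lp3.ks₀ s_244 (chanF μ (A 244)) := by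
  have h := Phase.run_loop (ph := lp3) lp3_check lp3_chk2 lp3_loop hF (Phase.rho_pos lp3_check) (hm_of rfl rfl hμ) 4 (lv_240 hF hμ)
  rw [run_of_beqG (ph := lp3) rfl rfl lp3_g1 lp3_g2 run_244] at h
  exact h

theorem lv_248 : StOK lp3.T.Lp.ρ lp3.T.par.r lp3.T.par.P lp3.S₀ lp3.ks₀ s_248 (chanF μ (A 248)) := by
  have h := Phase.run_loop (ph := lp3) lp3_check lp3_chk2 lp3_loop hF (Phase.rho_pos lp3_check) (hm_of rfl rfl hμ) 4 (lv_244 hF hμ)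
  rw [run_of_beqG (ph := lp3) rfl rfl lp3_g1 lp3_g2 run_248] at h
  exact h

theorem lv_252 : StOK lp3.T.Lp.ρ lp3.T.par.r lp3.T.par.P lp3.S₀ lp3.ks₀ s_252 (chanF μ (A 252)) := by
  have h := Phase.run_loop (ph := lp3) lp3_check lp3_chk2 lp3_loop hF (Phase.rho_pos lp3_check) (hm_of rfl rfl hμ) 4 (lv_248 hF hμ)
  rw [run_of_beqG (ph := lp3) rfl rfl lp3_g1 lp3_g2 run_252] at h
  exact h

theorem lv_256 : StOK lp3.T.Lp.ρ lp3.T.par.r lp3.T.par.P lp3.S₀ lp3.ks₀ s_256 (chanF μ (A 256)) := by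
  have h := Phase.run_loop (ph := lp3) lp3_check lp3_chk2 lp3_loop hF (Phase.rho_pos lp3_check) (hm_of rfl rfl hμ) 4 (lv_252 hF hμ)
  rw [run_of_beqG (ph := lp3) rfl rfl lp3_g1 lp3_g2 run_256] at h
  exact h

theorem lv_260 : StOK lp3.T.Lp.ρ lp3.T.par.r lp3.T.par.P lp3.S₀ lp3.ks₀ s_260 (chanF μ (A 260)) := by
  have h := Phase.run_loop (ph := lp3) lp3_check lp3_chk2 lp3_loop hF (Phase.rho_pos lp3_check) (hm_of rfl rfl hμ) 4 (lv_256 hF hμ)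
  rw [run_of_beqG (ph := lp3) rfl rfl lp3_g1 lp3_g2 run_260] at h
  exact h

theorem lv_264 : StOK lp3.T.Lp.ρ lp3.T.par.r lp3.T.par.P lp3.S₀ lp3.ks₀ s_264 (chanF μ (A 264)) := by
  have h := Phase.run_loop (ph := lp3) lp3_check lp3_chk2 lp3_loop hF (Phase.rho_pos lp3_check) (hm_of rfl rfl hμ) 4 (lv_260 hF hμ)
  rw [run_of_beqG (ph := lp3) rfl rfl lp3_g1 lp3_g2 run_264] at h
  exact h

theorem lv_268 : StOK lp3.T.Lp.ρ lp3.T.par.r lp3.T.par.P lp3.S₀ lp3.ks₀ s_268 (chanF μ (A 268)) := by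
  have h := Phase.run_loop (ph := lp3) lp3_check lp3_chk2 lp3_loop hF (Phase.rho_pos lp3_check) (hm_of rfl rfl hμ) 4 (lv_264 hF hμ)
  rw [run_of_beqG (ph := lp3) rfl rfl lp3_g1 lp3_g2 run_268] at h
  exact h

theorem lv_272 : StOK lp3.T.Lp.ρ lp3.T.par.r lp3.T.par.P lp3.S₀ lp3.ks₀ s_272 (chanF μ (A 272)) := by
  have h := Phase.run_loop (ph := lp3) lp3_check lp3_chk2 lp3_loop hF (Phase.rho_pos lp3_check) (hm_of rfl rfl hμ) 4 (lv_268 hF hμ)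
  rw [run_of_beqG (ph := lp3) rfl rfl lp3_g1 lp3_g2 run_272] at h
  exact h

theorem lv_276 : StOK lp3.T.Lp.ρ lp3.T.par.r lp3.T.par.P lp3.S₀ lp3.ks₀ s_276 (chanF μ (A 276)) := by
  have h := Phase.run_loop (ph := lp3) lp3_check lp3_chk2 lp3_loop hF (Phase.rho_pos lp3_check) (hm_of rfl rfl hμ) 4 (lv_272 hF hμ)
  rw [run_of_beqG (ph := lp3) rfl rfl lp3_g1 lp3_g2 run_276] at h
  exact h

theorem lv_279 : StOK lp3.T.Lp.ρ lp3.T.par.r lp3.T.par.P lp3.S₀ lp3.ks₀ s_279 (chanF μ (A 279)) := by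
  have h := Phase.run_loop (ph := lp3) lp3_check lp3_chk2 lp3_loop hF (Phase.rho_pos lp3_check) (hm_of rfl rfl hμ) 3 (lv_276 hF hμ)
  rw [run_of_beqG (ph := lp3) rfl rfl lp3_g1 lp3_g2 run_279] at h
  exact h

theorem final_x : A 280 xTest ≤ -((8967476376022912335872 : ℕ) : ℝ) * (1 / (2 ^ 32 * 2 ^ 40)) := by
  have h := Phase.test_bound (ph := lp3) lp3_check lp3_chk2 hF (Phase.rho_pos lp3_check) (lv_279 hF hμ) xTest_isTest xTest_bd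
  refine h.trans ?_
  have hc := Nat.le_of_ble_eq_true last_x
  have hc' : ((8967476376022912335872 : ℕ) : ℝ) ≤ ((lp3.T.testSum xA (lp3.parent s_279).1 (lp3.parent s_279).2 : ℕ) : ℝ) := Nat.cast_le.2 hc
  have hp : (0 : ℝ) ≤ 1 / (2 ^ lp3.T.par.P * 2 ^ 40) := by positivity
  have := mul_le_mul_of_nonneg_right hc' hp
  change _ ≤ -((8967476376022912335872 : ℕ) : ℝ) * (1 / (2 ^ lp3.T.par.P * 2 ^ 40))
  linarith

theorem final_q : A 280 Vale.Agent.Lib.P154.Cl.qTest ≤ -((18803568988144973905920 : ℕ) : ℝ) * (1 / (2 ^ 32 * 2 ^ 40)) := by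
  have h := Phase.test_bound (ph := lp3) lp3_check lp3_chk2 hF (Phase.rho_pos lp3_check) (lv_279 hF hμ) Vale.Agent.Lib.P154.Cl.qTest_isTest Vale.Agent.Lib.P154.Cl.qTest_bd
  refine h.trans ?_
  have hc := Nat.le_of_ble_eq_true last_q
  have hc' : ((18803568988144973905920 : ℕ) : ℝ) ≤ ((lp3.T.testSum Vale.Agent.Lib.P154.Cl.qA' (lp3.parent s_279).1 (lp3.parent s_279).2 : ℕ) : ℝ) := Nat.cast_le.2 hc
  have hp : (0 : ℝ) ≤ 1 / (2 ^ lp3.T.par.P * 2 ^ 40) := by positivity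
  have := mul_le_mul_of_nonneg_right hc' hp
  change _ ≤ -((18803568988144973905920 : ℕ) : ℝ) * (1 / (2 ^ lp3.T.par.P * 2 ^ 40))
  linarith

end

end

end Vale.Agent.Lib.P154C.D4
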