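import Vale.Agent.Lib.P154C.D4.Base

namespace Vale.Agent.Lib.P154C.D4

open Vale.Agent.Lib.P154B

noncomputable def ksNone : List Trip := []

noncomputable def ks0_0 : List Trip := [
(0,59,61),
(0,60,60),
(1,59,60),
(2,58,60),
(2,59,59),
(3,58,59),
(4,57,59),
(4,58,58),
(5,57,58),
(6,56,58),
(6,57,57),
(7,56,57),
(8,55,57),
(8,56,56),
(9,55,56),
(10,54,56),
(10,55,55),
(11,54,55),
(12,53,55),
(12,54,54),
(13,53,54),
(14,52,54),
(14,53,53),
(15,52,53),
(16,51,53),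
(16,52,52),
(17,51,52),
(18,50,52),
(18,51,51),
(19,50,51),
(20,49,51),
(20,50,50),
(21,49,50),
(22,48,50),
(22,49,49),
(23,48,49),
(24,47,49),
(24,48,48),
(25,46,49),
(25,47,48),
(26,46,48),
(26,47,47),
(27,45,48),
(27,46,47),
(28,45,47),
(28,46,46),
(29,44,47),
(29,45,46),
(30,43,47),
(30,44,46),
(30,45,45),
(31,43,46),
(31,44,45),
(32,42,46),
(32,43,45),
(32,44,44),
(33,41,46),
(33,42,45),
(33,43,44),
(34,40,46),
(34,41,45),
(34,42,44),
(34,43,43),
(35,39,46),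
(35,40,45),
(35,41,44),
(35,42,43),
(36,39,45),
(36,40,44),
(36,41,43),
(36,42,42),
(37,38,45),
(37,39,44),
(37,40,43),
(37,41,42),
(38,38,44),
(38,39,43),
(38,40,42),
(38,41,41),
(39,39,42),
(39,40,41),
(40,40,40)]

noncomputable def ks0 : List Trip := ks0_0

noncomputable def ks1_0 : List Trip := [
(0,44,46),
(0,45,45),
(1,44,45),
(2,43,45),
(2,44,44),
(3,43,44),
(4,42,44),
(4,43,43),
(5,42,43),
(6,41,43),
(6,42,42),
(7,41,42),
(8,40,42),
(8,41,41),
(9,40,41),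
(10,39,41),
(10,40,40),
(11,39,40),
(12,38,40),
(12,39,39),
(13,38,39),
(14,37,39),
(14,38,38),
(15,36,39),
(15,37,38),
(16,36,38),
(16,37,37),
(17,35,38),
(17,36,37),
(18,35,37),
(18,36,36),
(19,34,37),
(19,35,36),
(20,33,37),
(20,34,36),
(20,35,35),
(21,33,36),
(21,34,35),
(22,32,36),
(22,33,35),
(22,34,34),
(23,31,36),
(23,32,35),
(23,33,34),
(24,30,36),
(24,31,35),
(24,32,34),
(24,33,33),
(25,29,36),
(25,30,35),
(25,31,34),
(25,32,33),
(26,29,35),
(26,30,34),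
(26,31,33),
(26,32,32),
(27,28,35),
(27,29,34),
(27,30,33),
(27,31,32),
(28,28,34),
(28,29,33),
(28,30,32),
(28,31,31),
(29,29,32),
(29,30,31),
(30,30,30)]

noncomputable def ks1 : List Trip := ks1_0

noncomputable def ks2_0 : List Trip := [
(11,69,70),
(12,68,70),
(12,69,69),
(13,68,69),
(14,67,69),
(14,68,68),
(15,67,68),
(16,66,68),
(16,67,67),
(17,65,68),
(17,66,67),
(18,65,67),
(18,66,66),
(19,64,67),
(19,65,66),
(20,64,66),
(20,65,65),
(21,63,66),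
(21,64,65),
(22,62,66),
(22,63,65),
(22,64,64),
(23,62,65),
(23,63,64),
(24,61,65),
(24,62,64),
(24,63,63),
(25,60,65),
(25,61,64),
(25,62,63),
(26,60,64),
(26,61,63),
(26,62,62),
(27,59,64),
(27,60,63),
(27,61,62),
(28,58,64),
(28,59,63),
(28,60,62),
(28,61,61),
(29,58,63),
(29,59,62),
(29,60,61),
(30,57,63),
(30,58,62),
(30,59,61),
(30,60,60),
(31,56,63),
(31,57,62),
(31,58,61),
(31,59,60),
(32,56,62),
(32,57,61),
(32,58,60),
(32,59,59),
(33,55,62),
(33,56,61),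
(33,57,60),
(33,58,59),
(34,54,62),
(34,55,61),
(34,56,60),
(34,57,59),
(34,58,58),
(35,54,61),
(35,55,60),
(35,56,59),
(35,57,58),
(36,53,61),
(36,54,60),
(36,55,59),
(36,56,58),
(36,57,57),
(37,52,61),
(37,53,60),
(37,54,59),
(37,55,58),
(37,56,57),
(38,51,61),
(38,52,60),
(38,53,59),
(38,54,58),
(38,55,57),
(38,56,56),
(39,50,61),
(39,51,60),
(39,52,59),
(39,53,58),
(39,54,57),
(39,55,56),
(40,50,60),
(40,51,59),
(40,52,58),
(40,53,57),
(40,54,56),
(40,55,55),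
(41,49,60),
(41,50,59),
(41,51,58),
(41,52,57),
(41,53,56),
(41,54,55),
(42,48,60),
(42,49,59),
(42,50,58),
(42,51,57),
(42,52,56),
(42,53,55),
(42,54,54),
(43,47,60),
(43,48,59),
(43,49,58),
(43,50,57),
(43,51,56),
(43,52,55),
(43,53,54),
(44,46,60),
(44,47,59),
(44,48,58),
(44,49,57),
(44,50,56),
(44,51,55),
(44,52,54),
(44,53,53),
(45,45,60),
(45,46,59),
(45,47,58),
(45,48,57),
(45,49,56),
(45,50,55),
(45,51,54),
(45,52,53),
(46,46,58),
(46,47,57),
(46,48,56),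
(46,49,55),
(46,50,54),
(46,51,53),
(46,52,52),
(47,47,56),
(47,48,55),
(47,49,54),
(47,50,53),
(47,51,52),
(48,48,54),
(48,49,53),
(48,50,52),
(48,51,51),
(49,49,52),
(49,50,51),
(50,50,50)]

noncomputable def ks2 : List Trip := ks2_0

noncomputable def ks3_0 : List Trip := [
(18,51,51),
(19,48,53),
(19,50,51),
(20,47,53),
(20,48,52),
(20,49,51),
(20,50,50),
(21,47,52),
(21,48,51),
(21,49,50),
(22,46,52),
(22,47,51),
(22,48,50),
(22,49,49),
(23,45,52),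
(23,46,51),
(23,47,50),
(23,48,49),
(24,44,52),
(24,45,51),
(24,46,50),
(24,47,49),
(24,48,48),
(25,44,51),
(25,45,50),
(25,46,49),
(25,47,48),
(26,43,51),
(26,44,50),
(26,45,49),
(26,46,48),
(26,47,47),
(27,42,51),
(27,43,50),
(27,44,49),
(27,45,48),
(27,46,47),
(28,41,51),
(28,42,50),
(28,43,49),
(28,44,48),
(28,45,47),
(28,46,46),
(29,40,51),
(29,41,50),
(29,42,49),
(29,43,48),
(29,44,47),
(29,45,46),
(30,40,50),
(30,41,49),
(30,42,48),
(30,43,47),
(30,44,46),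
(30,45,45),
(31,39,50),
(31,40,49),
(31,41,48),
(31,42,47),
(31,43,46),
(31,44,45),
(32,38,50),
(32,39,49),
(32,40,48),
(32,41,47),
(32,42,46),
(32,43,45),
(32,44,44),
(33,37,50),
(33,38,49),
(33,39,48),
(33,40,47),
(33,41,46),
(33,42,45),
(33,43,44),
(34,36,50),
(34,37,49),
(34,38,48),
(34,39,47),
(34,40,46),
(34,41,45),
(34,42,44),
(34,43,43),
(35,35,50),
(35,36,49),
(35,37,48),
(35,38,47),
(35,39,46),
(35,40,45),
(35,41,44),
(35,42,43),
(36,36,48),
(36,37,47),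
(36,38,46),
(36,39,45),
(36,40,44),
(36,41,43),
(36,42,42),
(37,37,46),
(37,38,45),
(37,39,44),
(37,40,43),
(37,41,42),
(38,38,44),
(38,39,43),
(38,40,42),
(38,41,41),
(39,39,42),
(39,40,41),
(40,40,40)]

noncomputable def ks3 : List Trip := ks3_0

end Vale.Agent.Lib.P154C.D4
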