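import Vale.Agent.Lib.P154C.D4.Chain

/-!
The result of the table for the tree with four children.
-/

noncomputable section

open Finset

namespace Vale.Agent.Lib.P154C.D4

open Vale.Agent.Lib.P154B Vale.Agent.Lib.P154 Vale.Agent.Lib.P154.Cl

theorem funSeq_d4 {μ : ℝ} (h0 : 0 ≤ μ) (h1 : μ ≤ 1 / 2) :
    FunSeq (fun n => sigFun (lev 4 (-μ) n)) μ 32 qsD :=
  funSeq_reg 4 h0 h1 (by norm_num)

theorem xx_of {μ c : ℝ} (h0 : 0 ≤ μ) (h1 : μ ≤ 1 / 2) {N : ℕ} (h : sigFun (lev 4 (-μ) N) xTest ≤ c) :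
    3 * xx (lev 4 (-μ) N) ≤ c + 2 := by
  rw [(funcs_of_tests _ (lev_ssig 4 h0 h1 N)).1]
  linarith

theorem qq_of {μ c : ℝ} (h0 : 0 ≤ μ) (h1 : μ ≤ 1 / 2) {N : ℕ} (h : sigFun (lev 4 (-μ) N) qTest ≤ c) :
    QQ (lev 4 (-μ) N) ≤ c + 4 := by
  rw [(funcs_of_tests _ (lev_ssig 4 h0 h1 N)).2]
  linarith

/-- The bound of the table for the sum functional at its last level. -/
theorem xx_last {μ : ℝ} (h0 : 0 ≤ μ) (h1 : μ ≤ 1 / 2) : 3 * xx (lev 4 (-μ) 280) ≤ 1011 / 10000 := by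
  have h := xx_of h0 h1 (final_x (funSeq_d4 h0 h1) (by norm_num; exact h1))
  refine h.trans ?_
  norm_num

/-- The bound of the table for the fourth moment at its last level. -/
theorem QQ_last {μ : ℝ} (h0 : 0 ≤ μ) (h1 : μ ≤ 1 / 2) : QQ (lev 4 (-μ) 280) ≤ 183 / 10000 := by
  have h := qq_of h0 h1 (final_q (funSeq_d4 h0 h1) (by norm_num; exact h1))
  refine h.trans ?_
  norm_num

end Vale.Agent.Lib.P154C.D4
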